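import Vale.Agent.P097.PV.Main
import Vale.Agent.P097.TOP.Defs

/-! # P097 / PV : the block [FV] in the form of `TOP/Defs.lean` -/

set_option linter.all false

namespace Vale.Agent.P097.PV

open Vale.Agent.P097 Filter

/-- [FV] first variation -/
theorem stFV : TOP.StFV := by
  intro e hs es ε g η h0 hk He ce hgc hε l1 l2 l3 p n f hp hn hpn R x y hx hy
  obtain ⟨c, hc⟩ := first_variation_collar (f := f) (N := n) h0 hp hpn He ce
    (fun k => (hk k).1) (fun k => (hk k).2.2.1) (fun k => (hk k).2.1) (fun k => (hk k).2.2.2.1)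
    l1 l2 (fun k => (hk k).2.2.2.2) l3 R
  show ∑ j ∈ Finset.range n, g (x j) * Real.sin (f (x j)) =
    ∑ j ∈ Finset.range n, g (y j) * Real.sin (f (y j))
  rw [hc x hx, hc y hy]

end Vale.Agent.P097.PV
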