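import Vale.Agent.P097.Bdl.B2

/-!
# P097 / PV : closed chains of lines with winding number `p`

Pinned maximal configurations of `n + 1` line directions with total turn `2πp`.
-/

set_option linter.all false

namespace Vale.Agent.P097.PV

open Real Set Filter Topology

/-- Chains of `n + 2` line directions with total turn `2πp`, all gaps in `[0, 2π]`. -/
def CfgP (n p : ℕ) (θ : ℝ) (Z : ℕ → ℝ) : Prop :=
  Z 0 = θ ∧ Z (n + 1) = θ + 2 * π * p ∧ (∀ j ≤ n, Z j ≤ Z (j + 1)) ∧
    ∀ j ≤ n, Z (j + 1) ≤ Z j + 2 * π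

def MaxP (h : ℝ → ℝ) (n p : ℕ) (θ : ℝ) (Z : ℕ → ℝ) : Prop :=
  CfgP n p θ Z ∧ ∀ Z', CfgP n p θ Z' → L h n Z' ≤ L h n Z

variable {n p k : ℕ} {θ : ℝ} {Z : ℕ → ℝ} {h f : ℝ → ℝ}

theorem CfgP.mono (C : CfgP n p θ Z) {i j : ℕ} (hij : i ≤ j) (hj : j ≤ n + 1) : Z i ≤ Z j := by
  induction j, hij using Nat.le_induction with
  | base => exact le_refl _
  | succ k hk ih => exact (ih (by omega)).trans (C.2.2.1 k (by omega))

theorem CfgP.update (C : CfgP n p θ Z) (hk : k + 1 ≤ n) {z : ℝ}
    (h1 : Z k ≤ z) (h2 : z ≤ Z (k + 2)) (h3 : z ≤ Z k + 2 * π) (h4 : Z (k + 2) ≤ z + 2 * π) :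
    CfgP n p θ (Function.update Z (k + 1) z) := by
  refine ⟨?_, ?_, ?_, ?_⟩
  · rw [Function.update_of_ne (by omega)]
    exact C.1
  · rw [Function.update_of_ne (by omega)]
    exact C.2.1
  · intro j hj
    by_cases e1 : j = k
    · subst e1
      rw [Function.update_self, Function.update_of_ne (by omega)]
      exact h1
    · by_cases e2 : j = k + 1
      · subst e2
        rw [Function.update_self, Function.update_of_ne (by omega)]
        exact h2
      · rw [Function.update_of_ne e2, Function.update_of_ne (by omega)]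
        exact C.2.2.1 j hj
  · intro j hj
    by_cases e1 : j = k
    · subst e1
      rw [Function.update_self, Function.update_of_ne (by omega)]
      exact h3
    · by_cases e2 : j = k + 1
      · subst e2
        rw [Function.update_self, Function.update_of_ne (by omega)]
        exact h4
      · rw [Function.update_of_ne e2, Function.update_of_ne (by omega)]
        exact C.2.2.2 j hj

theorem MaxP.local (M : MaxP h n p θ Z)
    (hk : k + 1 ≤ n) {z : ℝ} (h1 : Z k ≤ z) (h2 : z ≤ Z (k + 2)) (h3 : z ≤ Z k + 2 * π)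
    (h4 : Z (k + 2) ≤ z + 2 * π) :
    S h (Z k) z + S h z (Z (k + 2)) ≤
      S h (Z k) (Z (k + 1)) + S h (Z (k + 1)) (Z (k + 2)) := by
  have := M.2 _ (M.1.update hk h1 h2 h3 h4)
  rw [L_update h hk] at this
  linarith only [this]

/-- All gaps of a maximal configuration are positive. -/
theorem MaxP.pos (H : Adm h) (hp : 1 ≤ p) (M : MaxP h n p θ Z) : ∀ j ≤ n, Z j < Z (j + 1) := by
  have hle := M.1.2.2.1
  have hle2 := M.1.2.2.2
  have key : ∀ k, k + 1 ≤ n → (Z k = Z (k + 1) ↔ Z (k + 1) = Z (k + 2)) := by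
    intro k hk
    by_contra hcon
    have h1 := hle k (by omega)
    have h2 := hle (k + 1) hk
    have g1 := hle2 k (by omega)
    have g2 := hle2 (k + 1) hk
    have h3 : Z k < Z (k + 2) := by
      rcases lt_or_eq_of_le h1 with h | h
      · exact lt_of_lt_of_le h h2
      · rcases lt_or_eq_of_le h2 with h' | h'
        · exact lt_of_le_of_lt h1 h'
        · exact absurd (by (clear * - hcon h h'; tauto)) hcon
    have h6 : Z (k + 2) ≤ Z k + 2 * π := by
      by_cases e1 : Z k = Z (k + 1)
      · rw [e1]; exact g2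
      · by_cases e2 : Z (k + 1) = Z (k + 2)
        · rw [← e2]; exact g1
        · exact absurd (by (clear * - hcon e2 e1; tauto)) hcon
    obtain ⟨z, hz, hgain⟩ := exists_gain H h3 h6
    have h4 := M.local hk hz.1.le hz.2.le (by linarith only [hz.2, h6]) (by linarith only [hz.1, h6])
    have h5 : S h (Z k) (Z (k + 1)) + S h (Z (k + 1)) (Z (k + 2)) = S h (Z k) (Z (k + 2)) := by
      by_cases e1 : Z k = Z (k + 1)
      · rw [e1, S_self, zero_add]
      · by_cases e2 : Z (k + 1) = Z (k + 2)
        · rw [← e2, S_self, add_zero]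
        · exact absurd (by (clear * - hcon e2 e1; tauto)) hcon
    linarith only [hgain, h4, h5]
  have key2 : ∀ j ≤ n, (Z j = Z (j + 1) ↔ Z 0 = Z 1) := by
    intro j
    induction j with
    | zero => intro _; rfl
    | succ k ih =>
      intro hk
      rw [← key k hk]
      exact ih (by omega)
  intro j hj
  rcases lt_or_eq_of_le (hle j hj) with h | h
  · exact h
  · exfalso
    have h0 : Z 0 = Z 1 := (key2 j hj).1 h
    have hall : ∀ i ≤ n + 1, Z i = Z 0 := by
      intro i
      induction i with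
      | zero => intro _; rfl
      | succ k ih =>
        intro hk
        rw [← (key2 k (by omega)).2 h0]
        exact ih (by omega)
    have := hall (n + 1) le_rfl
    rw [M.1.1, M.1.2.1] at this
    have hp' : (1 : ℝ) ≤ p := by exact_mod_cast hp
    have h2 : 0 < 2 * π * (p : ℝ) := by positivity
    linarith only [this, h2]

theorem K_shift (hper : ∀ x, h (x + 2 * π) = h x) (φ ψ : ℝ) : K h φ (ψ + 2 * π) = K h φ ψ := by
  unfold K
  rw [hper, deriv_per hper]
  have e1 : ψ + 2 * π - φ = (ψ - φ) + 2 * π := by ring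
  rw [e1, cos_add_two_pi, sin_add_two_pi]

theorem hasDerivAt_SS (H : An h) (a b m : ℝ) :
    HasDerivAt (fun z => S h a z + S h z b) (K h m ((a + m) / 2) - K h m ((m + b) / 2)) m := by
  have e1 := hasDerivAt_S H (hasDerivAt_const m a) (hasDerivAt_id m)
  have e2 := hasDerivAt_S H (hasDerivAt_id m) (hasDerivAt_const m b)
  refine (e1.add e2).congr_deriv ?_
  simp only [id]
  ring

/-- Leaving a full-turn gap increases the functional (first gap full). -/
theorem exists_gain_top (H : Adm h) {a m b : ℝ} (h1 : m = a + 2 * π) (h2 : m ≤ b)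
    (h3 : b < m + 2 * π) :
    ∃ z, a < z ∧ b - 2 * π < z ∧ z < m ∧ S h a m + S h m b < S h a z + S h z b := by
  have hd := hasDerivAt_SS H.an a b m
  have hneg : K h m ((a + m) / 2) - K h m ((m + b) / 2) < 0 := by
    have e1 : (m + π) = (a + m) / 2 + 2 * π := by rw [h1]; ring
    have e2 : K h m ((a + m) / 2) = K h m (m + π) := by rw [e1, K_shift H.per]
    have := K_strictAnti H m (a := (m + b) / 2) (b := m + π)
      ⟨by linarith only [h2], by linarith only [h3]⟩ ⟨by linarith only [pi_pos], le_rfl⟩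
      (by linarith only [h3])
    simp only at this
    rw [e2]
    linarith only [this]
  have h4 := (hasDerivAt_iff_tendsto_slope.1 hd)
  have h5 : ∀ᶠ z in nhdsWithin m (Iio m), slope (fun z => S h a z + S h z b) m z < 0 := by
    have h3 := (h4.eventually (gt_mem_nhds hneg))
    exact h3.filter_mono (nhdsWithin_mono _ (fun z hz => (ne_of_lt hz : z ≠ m)))
  have h6 : ∀ᶠ z in nhdsWithin m (Iio m), z ∈ Ioo (max a (b - 2 * π)) m :=
    Ioo_mem_nhdsLT (max_lt (by linarith only [h1, pi_pos]) (by linarith only [h3]))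
  obtain ⟨z, hz1, hz2⟩ := (h5.and h6).exists
  refine ⟨z, lt_of_le_of_lt (le_max_left _ _) hz2.1, lt_of_le_of_lt (le_max_right _ _) hz2.1,
    hz2.2, ?_⟩
  rw [slope_def_field] at hz1
  have h7 : z - m < 0 := by linarith [hz2.2]
  have h8 := (div_neg_iff.1 hz1)
  rcases h8 with h8 | h8
  · linarith only [h8.1]
  · linarith only [h8.2, h7]

/-- Leaving a full-turn gap increases the functional (second gap full). -/
theorem exists_gain_top' (H : Adm h) {a m b : ℝ} (h1 : b = m + 2 * π) (h2 : a ≤ m)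
    (h3 : m < a + 2 * π) :
    ∃ z, m < z ∧ z < a + 2 * π ∧ z < b ∧ S h a m + S h m b < S h a z + S h z b := by
  have hd := hasDerivAt_SS H.an a b m
  have hpos : 0 < K h m ((a + m) / 2) - K h m ((m + b) / 2) := by
    have e1 : (m + b) / 2 = (m - π) + 2 * π := by rw [h1]; ring
    have e2 : K h m ((m + b) / 2) = K h m (m - π) := by rw [e1, K_shift H.per]
    have := K_strictMono H m (a := m - π) (b := (a + m) / 2)
      ⟨le_rfl, by linarith only [pi_pos]⟩ ⟨by linarith only [h3], by linarith only [h2]⟩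
      (by linarith only [h3])
    simp only at this
    rw [e2]
    linarith only [this]
  have h4 := (hasDerivAt_iff_tendsto_slope.1 hd)
  have h5 : ∀ᶠ z in nhdsWithin m (Ioi m), 0 < slope (fun z => S h a z + S h z b) m z := by
    have h3 := (h4.eventually (lt_mem_nhds hpos))
    exact h3.filter_mono (nhdsWithin_mono _ (fun z hz => (ne_of_gt hz : z ≠ m)))
  have h6 : ∀ᶠ z in nhdsWithin m (Ioi m), z ∈ Ioo m (min (a + 2 * π) b) :=
    Ioo_mem_nhdsGT (lt_min h3 (by linarith only [h1, pi_pos]))
  obtain ⟨z, hz1, hz2⟩ := (h5.and h6).exists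
  refine ⟨z, hz2.1, lt_of_lt_of_le hz2.2 (min_le_left _ _), lt_of_lt_of_le hz2.2 (min_le_right _ _),
    ?_⟩
  rw [slope_def_field] at hz1
  have h7 : 0 < z - m := by linarith [hz2.1]
  have h8 := (div_pos_iff_of_pos_right h7).1 hz1
  linarith only [h8]

/-- All gaps of a maximal configuration are less than a full turn. -/
theorem MaxP.lt_top (H : Adm h) (hp : p ≤ n) (M : MaxP h n p θ Z) :
    ∀ j ≤ n, Z (j + 1) < Z j + 2 * π := by
  have hle := M.1.2.2.1
  have hle2 := M.1.2.2.2
  have key : ∀ k, k + 1 ≤ n → (Z (k + 1) = Z k + 2 * π ↔ Z (k + 2) = Z (k + 1) + 2 * π) := by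
    intro k hk
    have h1 := hle k (by omega)
    have h2 := hle (k + 1) hk
    have g1 := hle2 k (by omega)
    have g2 := hle2 (k + 1) hk
    constructor
    · intro he
      by_contra hcon
      have h3 : Z (k + 2) < Z (k + 1) + 2 * π := lt_of_le_of_ne g2 hcon
      obtain ⟨z, hz1, hz2, hz3, hgain⟩ := exists_gain_top H he h2 h3
      have h4 := M.local hk hz1.le (by linarith only [hz3, h2]) (by linarith only [hz3, g1])
        (by linarith only [hz2])
      linarith only [h4, hgain]
    · intro he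
      by_contra hcon
      have h3 : Z (k + 1) < Z k + 2 * π := lt_of_le_of_ne g1 hcon
      obtain ⟨z, hz1, hz2, hz3, hgain⟩ := exists_gain_top' H he h1 h3
      have h4 := M.local hk (by linarith only [hz1, h1]) hz3.le hz2.le
        (by linarith only [hz1, he])
      linarith only [h4, hgain]
  have key2 : ∀ j ≤ n, (Z (j + 1) = Z j + 2 * π ↔ Z 1 = Z 0 + 2 * π) := by
    intro j
    induction j with
    | zero => intro _; rfl
    | succ k ih =>
      intro hk
      rw [← key k hk]
      exact ih (by omega)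
  intro j hj
  rcases lt_or_eq_of_le (hle2 j hj) with h | h
  · exact h
  · exfalso
    have h0 : Z 1 = Z 0 + 2 * π := (key2 j hj).1 h
    have hall : ∀ i ≤ n + 1, Z i = Z 0 + 2 * π * i := by
      intro i
      induction i with
      | zero => intro _; simp
      | succ k ih =>
        intro hk
        rw [(key2 k (by omega)).2 h0, ih (by omega)]
        push_cast
        ring
    have := hall (n + 1) le_rfl
    rw [M.1.1, M.1.2.1] at this
    have hp' : (p : ℝ) ≤ n := by exact_mod_cast hp
    push_cast at this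
    have h2 : 0 < 2 * π := by positivity
    have h3 : 2 * π * (p : ℝ) ≤ 2 * π * n := mul_le_mul_of_nonneg_left hp' h2.le
    linarith only [this, h2, h3]

/-- Criticality at the interior lines. -/
theorem MaxP.crit (H : Adm h) (hp : 1 ≤ p) (hpn : p ≤ n) (M : MaxP h n p θ Z)
    (hk : k + 1 ≤ n) : K h (Z (k + 1)) (mid Z k) = K h (Z (k + 1)) (mid Z (k + 1)) := by
  have h1 := M.pos H hp k (by omega)
  have h2 := M.pos H hp (k + 1) hk
  have h3 := M.lt_top H hpn k (by omega)
  have h4 := M.lt_top H hpn (k + 1) hk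
  have hd : HasDerivAt (fun z => S h (Z k) z + S h z (Z (k + 2)))
      (K h (Z (k + 1)) (mid Z k) - K h (Z (k + 1)) (mid Z (k + 1))) (Z (k + 1)) :=
    hasDerivAt_SS H.an (Z k) (Z (k + 2)) (Z (k + 1))
  have hmax : IsLocalMax (fun z => S h (Z k) z + S h z (Z (k + 2))) (Z (k + 1)) := by
    filter_upwards [Ioo_mem_nhds h1 h2, Iio_mem_nhds h3,
      Ioi_mem_nhds (show Z (k + 2) - 2 * π < Z (k + 1) by
        have : Z (k + 1 + 1) = Z (k + 2) := rfl
        linarith only [h4, this])] with z hz hz2 hz3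
    have hz2' : z < Z k + 2 * π := hz2
    have hz3' : Z (k + 2) - 2 * π < z := hz3
    exact M.local hk hz.1.le hz.2.le hz2'.le (by linarith only [hz3'])
  have := hmax.hasDerivAt_eq_zero hd
  linarith only [this]

theorem f_shift (hfp : ∀ x, f (x + 2 * π) = f x) (m : ℕ) (x : ℝ) : f (x + 2 * π * m) = f x := by
  induction m with
  | zero => simp
  | succ k ih =>
    have : x + 2 * π * ((k + 1 : ℕ) : ℝ) = (x + 2 * π * k) + 2 * π := by push_cast; ring
    rw [this, hfp, ih]

theorem K_shift_both (hper : ∀ x, h (x + 2 * π) = h x) (m : ℕ) (φ ψ : ℝ) :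
    K h (φ + 2 * π * m) (ψ + 2 * π * m) = K h φ ψ := by
  induction m with
  | zero => simp
  | succ k ih =>
    have e1 : φ + 2 * π * ((k + 1 : ℕ) : ℝ) = (φ + 2 * π * k) + 2 * π := by push_cast; ring
    have e2 : ψ + 2 * π * ((k + 1 : ℕ) : ℝ) = (ψ + 2 * π * k) + 2 * π := by push_cast; ring
    rw [e1, e2, K_per hper, ih]

/-- Closing with winding number `p`. -/
theorem closingP (H : Adm h) (G : InvGraph h f) (hp : 1 ≤ p) {z x y : ℝ}
    (hx : f x = x - z) (hy : f y = z + 2 * π * p - y) : K h (z + 2 * π * p) y = K h z x := by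
  obtain ⟨m, rfl⟩ : ∃ m, p = m + 1 := ⟨p - 1, by omega⟩
  have e1 : (y - 2 * π * m) + 2 * π * m = y := by ring
  have h1 : f (y - 2 * π * m) = z + 2 * π - (y - 2 * π * m) := by
    have := f_shift G.2.1 m (y - 2 * π * m)
    rw [e1] at this
    rw [← this, hy]
    push_cast
    ring
  have h2 := G.closing H hx h1
  rw [← h2, ← K_shift_both H.per m (z + 2 * π) (y - 2 * π * m), e1]
  congr 1
  push_cast
  ring

theorem MaxP.closes_of_collar (H : Adm h) {η : ℝ} (hη : Collar h η) (hp : 1 ≤ p) (hpn : p ≤ n)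
    (hn : π * p / (n + 1) < η) (M : MaxP h n p θ Z) :
    Closes h n Z ∧ ∃ f, InvGraph h f ∧ ∀ j ≤ n, f (mid Z j) = Z (j + 1) - mid Z j := by
  have hpos := M.pos H hp
  obtain ⟨i, hi, hgap⟩ : ∃ i ≤ n, (Z (i + 1) - Z i) ≤ 2 * π * p / (n + 1) := by
    by_contra hcon
    push Not at hcon
    have h1 : ∑ j ∈ Finset.range (n + 1), (2 * π * p / (n + 1) : ℝ) <
        ∑ j ∈ Finset.range (n + 1), (Z (j + 1) - Z j) := by
      apply Finset.sum_lt_sum_of_nonempty ⟨0, by simp⟩
      intro j hj
      exact hcon j (by rw [Finset.mem_range] at hj; omega)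
    rw [Finset.sum_range_sub, M.1.1, M.1.2.1, Finset.sum_const, Finset.card_range, nsmul_eq_mul]
      at h1
    push_cast at h1
    have hn1 : (0 : ℝ) < n + 1 := by (clear * -; positivity)
    have h2 : ((n : ℝ) + 1) * (2 * π * p / (n + 1)) = 2 * π * p := by field_simp
    rw [h2] at h1
    linarith only [h1]
  obtain ⟨f, G, hf⟩ := hη (mid Z i) (Z (i + 1) - mid Z i)
    (by have := hpos i hi; simp only [mid]; linarith only [this])
    (by
      have e : Z (i + 1) - mid Z i = (Z (i + 1) - Z i) / 2 := by simp only [mid]; ring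
      rw [e]
      have e2 : 2 * π * p / ((n : ℝ) + 1) = 2 * (π * p / (n + 1)) := by ring
      rw [e2] at hgap
      linarith only [hgap, hn])
  have hall := G.chain H hpos (fun j hj => M.1.2.2.2 j hj)
    (fun k hk => M.crit H hp hpn hk) hi hf
  refine ⟨?_, f, G, hall⟩
  have h0 := hall 0 (Nat.zero_le n)
  have hn' := hall n le_rfl
  have e0 : Z 1 - mid Z 0 = mid Z 0 - Z 0 := by simp only [mid]; ring
  unfold Closes
  rw [M.1.2.1, M.1.1]
  apply closingP H G hp
  · rw [h0, zero_add, e0, M.1.1]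
  · rw [hn', M.1.2.1]

theorem MaxP.rot_zero (H : Adm h) (hp : 1 ≤ p) (hpn : p ≤ n) (M : MaxP h n p θ Z)
    (hc : Closes h n Z) : HasDerivAt (fun t => L h n (fun j => Z j + t)) 0 0 := by
  refine (hasDerivAt_rot H.an n Z).congr_deriv ?_
  rw [sum_telescope n (fun j => K h (Z j) (mid Z j)) (fun j => K h (Z (j + 1)) (mid Z j))
    (fun k hk => M.crit H hp hpn hk)]
  rw [hc]
  ring

theorem MaxP.closes_of_rot (H : Adm h) (hp : 1 ≤ p) (hpn : p ≤ n)
    (M : MaxP h n p θ Z) (hc : IsLocalMax (fun t => L h n (fun j => Z j + t)) 0) :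
    Closes h n Z := by
  have h1 := hc.hasDerivAt_eq_zero (hasDerivAt_rot H.an n Z)
  rw [sum_telescope n (fun j => K h (Z j) (mid Z j)) (fun j => K h (Z (j + 1)) (mid Z j))
    (fun k hk => M.crit H hp hpn hk)] at h1
  unfold Closes
  linarith only [h1]

theorem CfgP.rot (C : CfgP n p θ Z) (t : ℝ) : CfgP n p (θ + t) (fun j => Z j + t) :=
  ⟨by simp only; rw [C.1], by simp only; rw [C.2.1]; ring,
    fun j hj => by simp only; linarith only [C.2.2.1 j hj],
    fun j hj => by simp only; linarith only [C.2.2.2 j hj]⟩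

end Vale.Agent.P097.PV
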