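import Vale.Agent.P097.PV.Max

/-!
# P097 / PV : rational invariant graphs with rotation number `p / (n + 1)`
-/

set_option linter.all false

namespace Vale.Agent.P097.PV

open Real Set Filter Topology

variable {n p k : ℕ} {θ : ℝ} {Z : ℕ → ℝ} {h f : ℝ → ℝ}

/-- An invariant graph all of whose orbits close after `N` bounces and `p` turns. -/
def RatLeafP (h : ℝ → ℝ) (N p : ℕ) (f : ℝ → ℝ) : Prop :=
  InvGraph h f ∧ ∀ x : ℕ → ℝ, (∀ j, Step h (x j) (f (x j)) (x (j + 1)) (f (x (j + 1)))) →
    x N = x 0 + 2 * π * p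

/-- On a table with a rational invariant curve every pinned maximal configuration lies on the
curve. -/
theorem MaxP.on_leaf (H : Adm h) (hp : 1 ≤ p) (hpn : p ≤ n) (R : RatLeafP h (n + 1) p f)
    (M : MaxP h n p θ Z) : ∀ j ≤ n, f (mid Z j) = Z (j + 1) - mid Z j := by
  obtain ⟨G, hR⟩ := R
  obtain ⟨F, hS, h1, h2, hm, ha, hb, hbs⟩ := G.exists_data H
  have hpos := M.pos H hp
  have hlen : ∀ j ≤ n, Z (j + 1) ≤ Z j + 2 * π := M.1.2.2.2
  have hcrit := fun k (hk : k + 1 ≤ n) => M.crit H hp hpn hk
  refine G.chain H hpos hlen hcrit (Nat.zero_le n) ?_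
  have hper : F^[n + 1] (mid Z 0) = mid Z 0 + 2 * π * p := by
    have := hR (fun j => F^[j] (mid Z 0)) (fun j => by
      simp only [Function.iterate_succ_apply']
      exact hS _)
    simpa only [Function.iterate_succ, Function.comp_apply, Function.iterate_zero, id_eq] using this
  have hI : ∀ k, k ≤ n → mid Z k ∈ Icc (Z (k + 1) - π) (Z (k + 1)) := by
    intro k hk
    have p1 := hpos k hk
    have l1 := hlen k hk
    simp only [mid]
    constructor <;> linarith only [l1, p1]
  have hI' : ∀ k, k + 1 ≤ n → mid Z (k + 1) ∈ Icc (Z (k + 1)) (Z (k + 1) + π) := by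
    intro k hk
    have p1 := hpos (k + 1) hk
    have l1 := hlen (k + 1) hk
    simp only [mid]
    constructor <;> linarith only [l1, p1]
  have e : ∀ k, mid Z (k + 1) - Z (k + 1) = Z (k + 2) - mid Z (k + 1) := by
    intro k
    simp only [mid]
    ring
  have e0 : Z 1 - mid Z 0 = mid Z 0 - Z 0 := by simp only [mid]; ring
  have hZ0 := M.1.1
  have hZn := M.1.2.1
  have hfs : f (mid Z 0 + 2 * π * p) = f (mid Z 0) := f_shift G.2.1 p _
  rcases lt_trichotomy (Z 1 - mid Z 0) (f (mid Z 0)) with hlt | heq | hgt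
  · exfalso
    have key : ∀ j, j ≤ n → Z (j + 1) - mid Z j < f (mid Z j) ∧ mid Z j ≤ F^[j] (mid Z 0) := by
      intro j
      induction j with
      | zero => intro _; exact ⟨hlt, le_rfl⟩
      | succ k ih =>
        intro hk
        obtain ⟨i1, i2⟩ := ih (by omega)
        obtain ⟨s1, y, _, s2, s3⟩ := step_above H G h1 h2 hm ha hb hbs (hI k (by omega))
          (hI' k hk) (hcrit k hk) i1
        rw [e k] at s1
        refine ⟨s1, ?_⟩
        rw [Function.iterate_succ_apply']
        have := hm.monotone i2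
        linarith only [s2, s3, this]
    obtain ⟨i1, i2⟩ := key n le_rfl
    obtain ⟨x, hx⟩ := hbs (Z (n + 1))
    simp only at hx
    have hxp : x < mid Z n := by
      apply hb.lt_iff_lt.1
      linarith
    have e3 : F x - f (F x) = Z (n + 1) := by linarith only [hx, h1 x]
    have e4 : F x < mid Z 0 + 2 * π * p := by
      rw [← hper, Function.iterate_succ_apply']
      exact lt_of_lt_of_le (hm hxp) (hm.monotone i2)
    have e5 := ha e4
    simp only at e5
    rw [hfs] at e5
    linarith only [e0, hZ0, hZn, hlt, e3, e5]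
  · simpa using heq.symm
  · exfalso
    have key : ∀ j, j ≤ n → f (mid Z j) < Z (j + 1) - mid Z j ∧ F^[j] (mid Z 0) ≤ mid Z j := by
      intro j
      induction j with
      | zero => intro _; exact ⟨hgt, le_rfl⟩
      | succ k ih =>
        intro hk
        obtain ⟨i1, i2⟩ := ih (by omega)
        obtain ⟨s1, y, _, s2, s3⟩ := step_below H G h1 h2 hm ha hb hbs (hI k (by omega))
          (hI' k hk) (hcrit k hk) i1
        rw [e k] at s1
        refine ⟨s1, ?_⟩
        rw [Function.iterate_succ_apply']
        have := hm.monotone i2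
        linarith only [s2, s3, this]
    obtain ⟨i1, i2⟩ := key n le_rfl
    obtain ⟨x, hx⟩ := hbs (Z (n + 1))
    simp only at hx
    have hxp : mid Z n < x := by
      apply hb.lt_iff_lt.1
      linarith
    have e3 : F x - f (F x) = Z (n + 1) := by linarith only [hx, h1 x]
    have e4 : mid Z 0 + 2 * π * p < F x := by
      rw [← hper, Function.iterate_succ_apply']
      exact lt_of_le_of_lt (hm.monotone i2) (hm hxp)
    have e5 := ha e4
    simp only at e5
    rw [hfs] at e5
    linarith only [e0, hZ0, hZn, hgt, e3, e5]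

theorem MaxP.closes_of_leaf (H : Adm h) (hp : 1 ≤ p) (hpn : p ≤ n) (R : RatLeafP h (n + 1) p f)
    (M : MaxP h n p θ Z) : Closes h n Z := by
  have hall := M.on_leaf H hp hpn R
  have hmain := hall 0 (Nat.zero_le n)
  have hn' := hall n le_rfl
  have e0 : Z 1 - mid Z 0 = mid Z 0 - Z 0 := by simp only [mid]; ring
  have hZ0 := M.1.1
  have hZn := M.1.2.1
  unfold Closes
  rw [hZn, hZ0]
  apply closingP H R.1 hp
  · rw [hmain, zero_add, e0, hZ0]
  · rw [hn', hZn]

theorem cstP_of_leaf (H : Adm h) (hp : 1 ≤ p) (hpn : p ≤ n) (R : RatLeafP h (n + 1) p f) :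
    CstP h n p :=
  cstP_of_closes H hp hpn (fun _ _ M => M.closes_of_leaf H hp hpn R)

/-- The maximal configuration pinned at the incoming direction of an orbit of a rational leaf is
that orbit. -/
theorem MaxP.eq_orbit (H : Adm h) (hp : 1 ≤ p) (hpn : p ≤ n) (R : RatLeafP h (n + 1) p f)
    {x : ℕ → ℝ} (hx : ∀ j, Step h (x j) (f (x j)) (x (j + 1)) (f (x (j + 1))))
    (M : MaxP h n p (x 0 - f (x 0)) Z) : ∀ j ≤ n, mid Z j = x j := by
  have hall := M.on_leaf H hp hpn R
  have hpos := M.pos H hp
  have hlen : ∀ j ≤ n, Z (j + 1) ≤ Z j + 2 * π := M.1.2.2.2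
  intro j
  induction j with
  | zero =>
    intro _
    apply R.1.inj H (z := x 0 - f (x 0))
    · have h0 := hall 0 (Nat.zero_le n)
      rw [h0]
      have e0 : Z (0 + 1) - mid Z 0 = mid Z 0 - Z 0 := by simp only [mid]; ring
      rw [e0, M.1.1]
    · ring
  | succ k ih =>
    intro hk
    have i1 := ih (by omega)
    have h0 := hall k (by omega)
    have hs := hx k
    have hz : Z (k + 1) = x k + f (x k) := by
      rw [i1] at h0
      linarith only [h0]
    have hK := hs.K_eq
    have hc := M.crit H hp hpn hk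
    rw [i1, hz] at hc
    obtain ⟨_, _, s3, s4, s5, _⟩ := hs
    apply next_unique H (φ := x k + f (x k)) _ _ (hc.symm.trans hK)
    · have p1 := hpos (k + 1) hk
      have l1 := hlen (k + 1) hk
      rw [← hz]
      simp only [mid]
      constructor <;> linarith only [l1, p1]
    · constructor <;> linarith only [s3, s4, s5]

end Vale.Agent.P097.PV
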