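import Vale.Agent.P097.PV.Var
import Vale.Agent.P097.Bdl.B3

/-!
# P097 / PV : first variation for smooth tables with a collar
-/

set_option linter.all false

namespace Vale.Agent.P097.PV

open Real Set Filter Topology

theorem collar_le_pi {h : ℝ → ℝ} {η : ℝ} (hη : Collar h η) : η ≤ π := by
  by_contra hcon
  push Not at hcon
  obtain ⟨f, G, hf⟩ := hη 0 π pi_pos hcon
  have := (G.2.2.1 0).2
  linarith

theorem adm_of_collar {h : ℝ → ℝ} {η : ℝ} (H : SmoothTable h) (h0 : 0 < η) (hη : Collar h η) :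
    Adm h :=
  (regularity H (Or.inl ⟨η, h0, hη⟩)).adm

/-- **First variation for tables with a collar.** -/
theorem first_variation_collar {e g f : ℝ → ℝ} {hs es : ℕ → ℝ → ℝ} {eps : ℕ → ℝ} {η : ℝ}
    {N p : ℕ} (h0 : 0 < η) (hp : 1 ≤ p) (hpN : π * p / N < η)
    (He : SmoothTable e) (ce : Collar e η) (Hh : ∀ k, SmoothTable (hs k))
    (ch : ∀ k, Collar (hs k) η) (Hes : ∀ k, SmoothTable (es k)) (ces : ∀ k, Collar (es k) η)
    (l1 : TendstoUniformly hs e atTop) (l2 : TendstoUniformly es e atTop) (hpos : ∀ k, 0 < eps k)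
    (l3 : TendstoUniformly (fun k x => (hs k x - es k x) / eps k) g atTop)
    (R : RatLeafP e N p f) :
    ∃ c : ℝ, ∀ x : ℕ → ℝ, (∀ j, Step e (x j) (f (x j)) (x (j + 1)) (f (x (j + 1)))) →
      ∑ j ∈ Finset.range N, g (x j) * sin (f (x j)) = c := by
  rcases Nat.eq_zero_or_pos N with hN | hN
  · subst hN
    exact ⟨0, fun x _ => by simp⟩
  obtain ⟨n, rfl⟩ : ∃ n, N = n + 1 := ⟨N - 1, by omega⟩
  have hpN' : π * p / ((n : ℝ) + 1) < η := by
    have := hpN
    push_cast at this
    exact this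
  have hpn : p ≤ n := by
    have h1 := lt_of_lt_of_le hpN' (collar_le_pi ce)
    have hn1 : (0 : ℝ) < n + 1 := by positivity
    rw [div_lt_iff₀ hn1] at h1
    have h2 : (p : ℝ) < n + 1 := lt_of_mul_lt_mul_left h1 pi_pos.le
    have : p < n + 1 := by exact_mod_cast h2
    omega
  have Ae := adm_of_collar He h0 ce
  have Ah := fun k => adm_of_collar (Hh k) h0 (ch k)
  have Aes := fun k => adm_of_collar (Hes k) h0 (ces k)
  have hgc : Continuous g := by
    refine l3.continuous (Eventually.of_forall fun k => ?_).frequently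
    exact ((Ah k).an.continuous.sub (Aes k).an.continuous).div_const _
  have conv : ∀ {u : ℕ → ℝ → ℝ} {v : ℝ → ℝ}, TendstoUniformly u v atTop →
      ∀ ε > 0, ∀ᶠ k in atTop, ∀ x, |u k x - v x| ≤ ε := by
    intro u v huv ε hε
    filter_upwards [Metric.tendstoUniformly_iff.1 huv ε hε] with k hk x
    have := hk x
    rw [dist_comm, Real.dist_eq] at this
    exact this.le
  exact first_variation hp hpn Ae hgc (fun k => (Ah k).an.continuous)
    (fun k => (Aes k).an.continuous) (fun k => cstP_of_collar (Ah k) (ch k) hp hpn hpN')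
    (fun k => cstP_of_collar (Aes k) (ces k) hp hpn hpN') (conv l1) (conv l2) hpos (conv l3) R

end Vale.Agent.P097.PV
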