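import Vale.Agent.P097.PV.Cfg

/-!
# P097 / PV : the maximum function with winding number `p`, uniqueness of the maximiser
-/

set_option linter.all false

namespace Vale.Agent.P097.PV

open Real Set Filter Topology

variable {n p k : ℕ} {θ : ℝ} {Z : ℕ → ℝ} {h f : ℝ → ℝ}

/-- Chain of `n + 2` line directions starting at `0` and ending at `2πp`. -/
noncomputable def extP (n p : ℕ) (y : Fin n → ℝ) (j : ℕ) : ℝ :=
  if j = 0 then 0 else if hj : j - 1 < n then y ⟨j - 1, hj⟩ else 2 * π * p

def DomP (n p : ℕ) : Set (Fin n → ℝ) :=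
  {y | ∀ j ≤ n, extP n p y j ≤ extP n p y (j + 1) ∧ extP n p y (j + 1) ≤ extP n p y j + 2 * π}

noncomputable def WP (h : ℝ → ℝ) (n p : ℕ) (θ : ℝ) (y : Fin n → ℝ) : ℝ :=
  L h n (fun j => θ + extP n p y j)

noncomputable def mxP (h : ℝ → ℝ) (n p : ℕ) (θ : ℝ) : ℝ :=
  sSup ((fun y => WP h n p θ y) '' DomP n p)

theorem extP_zero (n p : ℕ) (y : Fin n → ℝ) : extP n p y 0 = 0 := by simp [extP]

theorem extP_last (n p : ℕ) (y : Fin n → ℝ) : extP n p y (n + 1) = 2 * π * p := by simp [extP]

theorem extP_mid {n : ℕ} (p : ℕ) (y : Fin n → ℝ) (i : Fin n) : extP n p y (i + 1) = y i := by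
  simp [extP]

theorem continuous_extP (n p j : ℕ) : Continuous (fun y : Fin n → ℝ => extP n p y j) := by
  unfold extP
  by_cases h0 : j = 0
  · simp only [h0, if_true]
    exact continuous_const
  · by_cases hj : j - 1 < n
    · simp only [h0, if_false, hj, dif_pos]
      exact continuous_apply _
    · simp only [h0, if_false, hj, dif_neg, not_false_eq_true]
      exact continuous_const

theorem DomP_cfg {y : Fin n → ℝ} (hy : y ∈ DomP n p) (θ : ℝ) :
    CfgP n p θ (fun j => θ + extP n p y j) :=
  ⟨by simp only [extP_zero, add_zero], by simp only [extP_last],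
    fun j hj => by simp only; linarith [(hy j hj).1],
    fun j hj => by simp only; linarith [(hy j hj).2]⟩

theorem CfgP.exists_dom (C : CfgP n p θ Z) :
    ∃ y ∈ DomP n p, ∀ j ≤ n + 1, θ + extP n p y j = Z j := by
  have key : ∀ j ≤ n + 1, θ + extP n p (fun i : Fin n => Z (i + 1) - θ) j = Z j := by
    intro j hj
    rcases Nat.eq_zero_or_pos j with h0 | h0
    · subst h0
      rw [extP_zero, C.1, add_zero]
    · by_cases h1 : j - 1 < n
      · simp only [extP, if_neg (show ¬ j = 0 by omega), dif_pos h1]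
        have : j - 1 + 1 = j := by omega
        rw [this]
        ring
      · have : j = n + 1 := by omega
        rw [this, extP_last, C.2.1]
  refine ⟨fun i => Z (i + 1) - θ, ?_, key⟩
  intro j hj
  have h1 := key j (by omega)
  have h2 := key (j + 1) (by omega)
  have h3 := C.2.2.1 j hj
  have h4 := C.2.2.2 j hj
  constructor
  · linarith only [h3, h2, h1]
  · linarith only [h4, h2, h1]

theorem isClosed_DomP (n p : ℕ) : IsClosed (DomP n p) := by
  have : DomP n p = ⋂ j : ℕ, ⋂ _ : j ≤ n, ({y | extP n p y j ≤ extP n p y (j + 1)} ∩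
      {y | extP n p y (j + 1) ≤ extP n p y j + 2 * π}) := by
    ext y
    simp [DomP]
  rw [this]
  exact isClosed_iInter fun j => isClosed_iInter fun _ =>
    (isClosed_le (continuous_extP n p j) (continuous_extP n p (j + 1))).inter
      (isClosed_le (continuous_extP n p (j + 1)) ((continuous_extP n p j).add continuous_const))

theorem isCompact_DomP (n p : ℕ) : IsCompact (DomP n p) := by
  apply (isCompact_Icc (a := (fun _ => 0 : Fin n → ℝ)) (b := fun _ => 2 * π * p)).of_isClosed_subset
    (isClosed_DomP n p)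
  intro y hy
  have C := DomP_cfg hy 0
  constructor
  · intro i
    have h1 := C.mono (Nat.zero_le (i + 1)) (by omega)
    simp only [zero_add, extP_zero, extP_mid] at h1
    exact h1
  · intro i
    have h1 := C.mono (show (i : ℕ) + 1 ≤ n + 1 by omega) le_rfl
    simp only [zero_add, extP_last, extP_mid] at h1
    exact h1

theorem exists_cfgP (hpn : p ≤ n + 1) (θ : ℝ) : ∃ Z, CfgP n p θ Z := by
  have hn : (0 : ℝ) < n + 1 := by positivity
  have hp : (p : ℝ) ≤ n + 1 := by exact_mod_cast hpn
  have h1 : (p : ℝ) / (n + 1) ≤ 1 := (div_le_one hn).2 hp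
  have h0 : 0 ≤ (p : ℝ) / (n + 1) := by positivity
  refine ⟨fun j => θ + 2 * π * (p / (n + 1)) * j, ?_, ?_, ?_, ?_⟩
  · simp
  · push_cast
    field_simp
  · intro j _
    have : 0 ≤ 2 * π * ((p : ℝ) / (n + 1)) := by positivity
    push_cast
    linarith only [this]
  · intro j _
    have : 2 * π * ((p : ℝ) / (n + 1)) ≤ 2 * π * 1 :=
      mul_le_mul_of_nonneg_left h1 (by positivity)
    push_cast
    linarith only [this]

theorem nonempty_DomP (hpn : p ≤ n + 1) : (DomP n p).Nonempty := by
  obtain ⟨Z, C⟩ := exists_cfgP (n := n) hpn 0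
  obtain ⟨y, hy, _⟩ := C.exists_dom
  exact ⟨y, hy⟩

theorem continuous_WP (hc : Continuous h) (n p : ℕ) :
    Continuous (fun q : ℝ × (Fin n → ℝ) => WP h n p q.1 q.2) := by
  unfold WP L S
  have := fun j => (continuous_extP n p j)
  fun_prop

theorem exists_maxP (hc : Continuous h) (hpn : p ≤ n + 1) (θ : ℝ) : ∃ Z, MaxP h n p θ Z := by
  obtain ⟨y, hy, hmax⟩ := (isCompact_DomP n p).exists_isMaxOn (nonempty_DomP hpn)
    ((continuous_WP hc n p).comp (Continuous.prodMk_right θ)).continuousOn
  refine ⟨fun j => θ + extP n p y j, DomP_cfg hy θ, ?_⟩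
  intro Z' C
  obtain ⟨y', hy', he⟩ := C.exists_dom
  have := hmax hy'
  rw [← L_congr h he]
  exact this

theorem le_mxP (hc : Continuous h) (C : CfgP n p θ Z) : L h n Z ≤ mxP h n p θ := by
  obtain ⟨y, hy, he⟩ := C.exists_dom
  rw [← L_congr h he]
  apply le_csSup
  · exact ((isCompact_DomP n p).image
      ((continuous_WP hc n p).comp (Continuous.prodMk_right θ))).bddAbove
  · exact ⟨y, hy, rfl⟩

theorem MaxP.mx_eq (hc : Continuous h) (M : MaxP h n p θ Z) : mxP h n p θ = L h n Z := by
  apply le_antisymm _ (le_mxP hc M.1)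
  obtain ⟨y, hy, _⟩ := M.1.exists_dom
  apply csSup_le ((show (DomP n p).Nonempty from ⟨y, hy⟩).image _)
  rintro _ ⟨y, hy, rfl⟩
  exact M.2 _ (DomP_cfg hy θ)

theorem maxP_of_eq (hc : Continuous h) (C : CfgP n p θ Z) (he : mxP h n p θ ≤ L h n Z) :
    MaxP h n p θ Z :=
  ⟨C, fun _ C' => (le_mxP hc C').trans he⟩

theorem continuous_mxP (hc : Continuous h) (n p : ℕ) : Continuous (mxP h n p) := by
  unfold mxP
  exact IsCompact.continuous_sSup (isCompact_DomP n p)
    (f := fun (t : ℝ) (y : Fin n → ℝ) => WP h n p t y) (continuous_WP hc n p)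

theorem mxP_per (hp : ∀ x, h (x + 2 * π) = h x) (n p : ℕ) (θ : ℝ) :
    mxP h n p (θ + 2 * π) = mxP h n p θ := by
  unfold mxP
  congr 1
  apply image_congr
  intro y _
  unfold WP L
  apply Finset.sum_congr rfl
  intro j _
  have e1 : θ + 2 * π + extP n p y j = (θ + extP n p y j) + 2 * π := by ring
  have e2 : θ + 2 * π + extP n p y (j + 1) = (θ + extP n p y (j + 1)) + 2 * π := by ring
  show S h (θ + 2 * π + extP n p y j) (θ + 2 * π + extP n p y (j + 1)) = _
  rw [e1, e2, S_per hp]

/-- The maximum does not depend on the pinned direction. -/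
def CstP (h : ℝ → ℝ) (n p : ℕ) : Prop := ∀ θ, mxP h n p θ = mxP h n p 0

theorem cstP_of_closes (H : Adm h) (hp : 1 ≤ p) (hpn : p ≤ n)
    (hcl : ∀ θ Z, MaxP h n p θ Z → Closes h n Z) : CstP h n p := by
  intro θ
  have hc := H.an.continuous
  refine eq_zero_of_monotone_periodic ?_ (by positivity : (0 : ℝ) < 2 * π) (mxP_per H.per n p) θ 0
  intro a b hab
  have := image_le_of_liminf_slope_right_le_deriv_boundary (f := fun t => - mxP h n p t)
    (a := a) (b := b) (continuous_mxP hc n p).neg.continuousOn (B := fun _ => - mxP h n p a)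
    (B' := fun _ => 0) le_rfl continuousOn_const
    (fun x _ => hasDerivWithinAt_const _ _ _) ?_ (right_mem_Icc.2 hab)
  · linarith
  · intro x _ r hr
    apply Eventually.frequently
    obtain ⟨Z, M⟩ := exists_maxP hc (show p ≤ n + 1 by omega) x
    have hd := M.rot_zero H hp hpn (hcl x Z M)
    have hd2 : HasDerivAt (fun z => - L h n (fun j => Z j + (z - x))) (-0) x := by
      have h0 : HasDerivAt (fun t => L h n (fun j => Z j + t)) 0 (x - x) := by
        rw [sub_self]; exact hd
      exact (HasDerivAt.comp_sub_const x x h0).neg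
    rw [neg_zero] at hd2
    have h2 := (hasDerivAt_iff_tendsto_slope.1 hd2).eventually (gt_mem_nhds hr)
    have h3 := h2.filter_mono (nhdsWithin_mono x (fun z hz => (ne_of_gt hz : z ≠ x)) :
      𝓝[>] x ≤ 𝓝[≠] x)
    filter_upwards [h3, self_mem_nhdsWithin] with z hz1 hz2
    refine lt_of_le_of_lt ?_ hz1
    rw [slope_def_field, slope_def_field]
    have hz3 : 0 < z - x := sub_pos.2 hz2
    apply div_le_div_of_nonneg_right _ hz3.le
    have e1 : L h n (fun j => Z j + (z - x)) ≤ mxP h n p z := by
      have := le_mxP hc (M.1.rot (z - x))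
      rwa [add_sub_cancel] at this
    have e2 : L h n (fun j => Z j + (x - x)) = mxP h n p x := by
      rw [M.mx_eq hc]
      simp
    rw [e2]
    linarith

theorem cstP_of_collar (H : Adm h) {η : ℝ} (hη : Collar h η) (hp : 1 ≤ p) (hpn : p ≤ n)
    (hn : π * p / (n + 1) < η) : CstP h n p :=
  cstP_of_closes H hp hpn (fun _ _ M => (M.closes_of_collar H hη hp hpn hn).1)

theorem MaxP.closes (H : Adm h) (hp : 1 ≤ p) (hpn : p ≤ n) (hC : CstP h n p)
    (M : MaxP h n p θ Z) : Closes h n Z := by
  apply M.closes_of_rot H hp hpn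
  apply Eventually.of_forall
  intro t
  have h1 := le_mxP H.an.continuous (M.1.rot t)
  have h2 := M.mx_eq H.an.continuous
  rw [hC] at h1 h2
  simp only [add_zero]
  linarith only [h1, h2]

theorem L_sup_infP (H : Adm h) {Z' : ℕ → ℝ} (C : CfgP n p θ Z) (C' : CfgP n p θ Z') :
    L h n Z + L h n Z' ≤ L h n (fun j => max (Z j) (Z' j)) + L h n (fun j => min (Z j) (Z' j)) := by
  unfold L
  rw [← Finset.sum_add_distrib, ← Finset.sum_add_distrib]
  apply Finset.sum_le_sum
  intro j hj
  rw [Finset.mem_range] at hj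
  have a1 := C.2.2.1 j (by omega)
  have a2 := C'.2.2.1 j (by omega)
  have g1 := C.2.2.2 j (by omega)
  have g2 := C'.2.2.2 j (by omega)
  show S h (Z j) (Z (j + 1)) + S h (Z' j) (Z' (j + 1)) ≤
    S h (max (Z j) (Z' j)) (max (Z (j + 1)) (Z' (j + 1))) +
      S h (min (Z j) (Z' j)) (min (Z (j + 1)) (Z' (j + 1)))
  rcases le_total (Z j) (Z' j) with h1 | h1 <;> rcases le_total (Z (j + 1)) (Z' (j + 1)) with h2 | h2
  · rw [max_eq_right h1, max_eq_right h2, min_eq_left h1, min_eq_left h2]
    linarith only []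
  · rw [max_eq_right h1, max_eq_left h2, min_eq_left h1, min_eq_right h2]
    have := S_super H h1 a2 h2 g1
    linarith only [this]
  · rw [max_eq_left h1, max_eq_right h2, min_eq_right h1, min_eq_left h2]
    have := S_super H h1 a1 h2 g2
    linarith only [this]
  · rw [max_eq_left h1, max_eq_left h2, min_eq_right h1, min_eq_right h2]

theorem ordered_eqP (H : Adm h) (hp : 1 ≤ p) (hpn : p ≤ n) {u v : ℕ → ℝ}
    (Mu : MaxP h n p θ u) (Mv : MaxP h n p θ v) (hu : Closes h n u) (hv : Closes h n v)
    (hle : ∀ j ≤ n + 1, v j ≤ u j) : ∀ j ≤ n + 1, u j = v j := by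
  have pu := Mu.pos H hp
  have pv := Mv.pos H hp
  have gu := Mu.1.2.2.2
  have gv := Mv.1.2.2.2
  have hu0 := Mu.1.1
  have hv0 := Mv.1.1
  have hun := Mu.1.2.1
  have hvn := Mv.1.2.1
  -- first gap
  have e1 : K h θ (mid u 0) ≤ K h θ (mid v 0) := by
    apply (K_strictAnti H θ).antitoneOn
    · have := pv 0 (Nat.zero_le n)
      have := gv 0 (Nat.zero_le n)
      simp only [mid, zero_add]
      simp only [zero_add] at *
      rw [hv0] at *
      constructor <;> linarith
    · have := pu 0 (Nat.zero_le n)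
      have := gu 0 (Nat.zero_le n)
      simp only [mid, zero_add]
      simp only [zero_add] at *
      rw [hu0] at *
      constructor <;> linarith
    · have := hle 1 (by omega)
      simp only [mid, zero_add]
      rw [hu0, hv0]
      linarith only [this]
  have e2 : K h (θ + 2 * π * p) (mid v n) ≤ K h (θ + 2 * π * p) (mid u n) := by
    apply (K_strictMono H (θ + 2 * π * p)).monotoneOn
    · have := pv n le_rfl
      have := gv n le_rfl
      simp only [mid]
      rw [hvn] at *
      constructor <;> linarith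
    · have := pu n le_rfl
      have := gu n le_rfl
      simp only [mid]
      rw [hun] at *
      constructor <;> linarith
    · have := hle n (by omega)
      simp only [mid]
      rw [hun, hvn]
      linarith only [this]
  unfold Closes at hu hv
  rw [hun, hu0] at hu
  rw [hvn, hv0] at hv
  have e3 : K h θ (mid u 0) = K h θ (mid v 0) := by linarith only [hu, hv, e2, e1]
  have e4 : mid u 0 = mid v 0 := by
    apply next_unique H (φ := θ) _ _ e3
    · have := pu 0 (Nat.zero_le n)
      have := gu 0 (Nat.zero_le n)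
      simp only [mid, zero_add]
      simp only [zero_add] at *
      rw [hu0] at *
      constructor <;> linarith
    · have := pv 0 (Nat.zero_le n)
      have := gv 0 (Nat.zero_le n)
      simp only [mid, zero_add]
      simp only [zero_add] at *
      rw [hv0] at *
      constructor <;> linarith
  have e5 : u 1 = v 1 := by
    simp only [mid, zero_add] at e4
    rw [hu0, hv0] at e4
    linarith only [e4]
  have key : ∀ j, j + 1 ≤ n + 1 → u j = v j ∧ u (j + 1) = v (j + 1) := by
    intro j
    induction j with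
    | zero => intro _; exact ⟨by rw [hu0, hv0], e5⟩
    | succ k ih =>
      intro hk
      obtain ⟨i1, i2⟩ := ih (by omega)
      refine ⟨i2, ?_⟩
      have c1 := Mu.crit H hp hpn (k := k) (by omega)
      have c2 := Mv.crit H hp hpn (k := k) (by omega)
      have m1 : mid u k = mid v k := by simp only [mid]; rw [i1, i2]
      rw [i2] at c1
      rw [m1] at c1
      have m2 : mid u (k + 1) = mid v (k + 1) := by
        apply next_unique H (φ := v (k + 1)) _ _ (c1.symm.trans c2)
        · have := pu (k + 1) (by omega)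
          have := gu (k + 1) (by omega)
          simp only [mid]
          rw [← i2]
          constructor <;> linarith
        · have := pv (k + 1) (by omega)
          have := gv (k + 1) (by omega)
          simp only [mid]
          constructor <;> linarith
      simp only [mid] at m2
      linarith only [i2, m2]
  intro j hj
  rcases Nat.eq_zero_or_pos j with h0 | h0
  · subst h0
    rw [hu0, hv0]
  · have := (key (j - 1) (by omega)).2
    have e : j - 1 + 1 = j := by omega
    rwa [e] at this

theorem MaxP.unique (H : Adm h) (hp : 1 ≤ p) (hpn : p ≤ n) (hC : CstP h n p) {Z' : ℕ → ℝ}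
    (M : MaxP h n p θ Z) (M' : MaxP h n p θ Z') : ∀ j ≤ n + 1, Z j = Z' j := by
  have Cu : CfgP n p θ (fun j => max (Z j) (Z' j)) := by
    refine ⟨?_, ?_, ?_, ?_⟩
    · simp only; rw [M.1.1, M'.1.1, max_self]
    · simp only; rw [M.1.2.1, M'.1.2.1, max_self]
    · intro j hj
      exact max_le_max (M.1.2.2.1 j hj) (M'.1.2.2.1 j hj)
    · intro j hj
      have a := M.1.2.2.2 j hj
      have b := M'.1.2.2.2 j hj
      exact max_le (a.trans (by linarith only [le_max_left (Z j) (Z' j)]))
        (b.trans (by linarith only [le_max_right (Z j) (Z' j)]))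
  have Cv : CfgP n p θ (fun j => min (Z j) (Z' j)) := by
    refine ⟨?_, ?_, ?_, ?_⟩
    · simp only; rw [M.1.1, M'.1.1, min_self]
    · simp only; rw [M.1.2.1, M'.1.2.1, min_self]
    · intro j hj
      exact min_le_min (M.1.2.2.1 j hj) (M'.1.2.2.1 j hj)
    · intro j hj
      have a := M.1.2.2.2 j hj
      have b := M'.1.2.2.2 j hj
      have c := min_le_left (Z (j + 1)) (Z' (j + 1))
      have d := min_le_right (Z (j + 1)) (Z' (j + 1))
      have e : min (Z (j + 1)) (Z' (j + 1)) - 2 * π ≤ min (Z j) (Z' j) :=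
        le_min (by linarith only [a, c]) (by linarith only [b, d])
      simp only
      linarith only [e]
  have h1 := L_sup_infP H M.1 M'.1
  have h2 := M.2 _ Cu
  have h3 := M.2 _ Cv
  have h4 := M'.2 _ M.1
  have h5 := M.2 _ M'.1
  have hc := H.an.continuous
  have Mu : MaxP h n p θ (fun j => max (Z j) (Z' j)) := by
    apply maxP_of_eq hc Cu
    rw [M.mx_eq hc]
    linarith only [h1, h3, h4]
  have Mv : MaxP h n p θ (fun j => min (Z j) (Z' j)) := by
    apply maxP_of_eq hc Cv
    rw [M.mx_eq hc]
    linarith only [h1, h2, h4]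
  have := ordered_eqP H hp hpn Mu Mv (Mu.closes H hp hpn hC) (Mv.closes H hp hpn hC)
    (fun j _ => min_le_max)
  intro j hj
  have := this j hj
  have a1 := le_max_left (Z j) (Z' j)
  have a2 := le_max_right (Z j) (Z' j)
  have a3 := min_le_left (Z j) (Z' j)
  have a4 := min_le_right (Z j) (Z' j)
  linarith only [this, a2, a3, a1, a4]

end Vale.Agent.P097.PV
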