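import Vale.Agent.P097.PV.Leaf

/-!
# P097 / PV : first variation of the maximum function
-/

set_option linter.all false

namespace Vale.Agent.P097.PV

open Real Set Filter Topology

variable {n p k : ℕ} {θ : ℝ} {Z : ℕ → ℝ} {h f : ℝ → ℝ}

theorem L_linear (u v : ℝ → ℝ) (c : ℝ) (n : ℕ) (Z : ℕ → ℝ) :
    L (fun x => u x + c * v x) n Z = L u n Z + c * L v n Z := by
  unfold L
  rw [Finset.mul_sum, ← Finset.sum_add_distrib]
  apply Finset.sum_congr rfl
  intro j _
  unfold S
  ring

theorem L_close {u v : ℝ → ℝ} {δ : ℝ} (huv : ∀ x, |u x - v x| ≤ δ) (n : ℕ) (Z : ℕ → ℝ) :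
    |L u n Z - L v n Z| ≤ 2 * δ * (n + 1) := by
  unfold L
  rw [← Finset.sum_sub_distrib]
  refine (Finset.abs_sum_le_sum_abs _ _).trans ?_
  refine (Finset.sum_le_card_nsmul _ _ (2 * δ) ?_).trans ?_
  · intro j _
    have h0 : 0 ≤ δ := (abs_nonneg _).trans (huv 0)
    unfold S
    have e : 2 * u ((Z j + Z (j + 1)) / 2) * sin ((Z (j + 1) - Z j) / 2) -
        2 * v ((Z j + Z (j + 1)) / 2) * sin ((Z (j + 1) - Z j) / 2) =
        2 * (u ((Z j + Z (j + 1)) / 2) - v ((Z j + Z (j + 1)) / 2)) *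
          sin ((Z (j + 1) - Z j) / 2) := by ring
    rw [e, abs_mul, abs_mul, abs_two]
    have h1 := huv ((Z j + Z (j + 1)) / 2)
    have h2 := abs_sin_le_one ((Z (j + 1) - Z j) / 2)
    have h3 : 2 * |u ((Z j + Z (j + 1)) / 2) - v ((Z j + Z (j + 1)) / 2)| ≤ 2 * δ := by
      linarith only [h1]
    calc _ ≤ (2 * δ) * 1 := mul_le_mul h3 h2 (abs_nonneg _) (by linarith only [h0])
      _ = 2 * δ := mul_one _
  · rw [Finset.card_range, nsmul_eq_mul]
    push_cast
    linarith only []

/-- Stability of the maximiser. -/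
theorem tendsto_max {u : ℕ → ℝ → ℝ} {e : ℝ → ℝ} (hec : Continuous e)
    (hu : ∀ ε > 0, ∀ᶠ k in atTop, ∀ x, |u k x - e x| ≤ ε) {y : ℕ → Fin n → ℝ} {y₀ : Fin n → ℝ}
    (hy : ∀ k, y k ∈ DomP n p) (hM : ∀ k, ∀ y' ∈ DomP n p, WP (u k) n p θ y' ≤ WP (u k) n p θ (y k))
    (hy₀ : y₀ ∈ DomP n p)
    (hun : ∀ y' ∈ DomP n p, (∀ y'' ∈ DomP n p, WP e n p θ y'' ≤ WP e n p θ y') → y' = y₀) :
    Tendsto y atTop (𝓝 y₀) := by
  have hcW : Continuous (fun y => WP e n p θ y) :=
    (continuous_WP hec n p).comp (Continuous.prodMk_right θ)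
  obtain ⟨ym, hym, hmax⟩ := (isCompact_DomP n p).exists_isMaxOn ⟨y₀, hy₀⟩ hcW.continuousOn
  have hmax' : ∀ y'' ∈ DomP n p, WP e n p θ y'' ≤ WP e n p θ ym := fun y'' hy'' => hmax hy''
  have hT : Tendsto (fun k => WP e n p θ (y k)) atTop (𝓝 (WP e n p θ ym)) := by
    rw [Metric.tendsto_atTop]
    intro ε hε
    have hn : (0 : ℝ) < 2 * (n + 1) := by positivity
    have h1 := hu (ε / (2 * (2 * (n + 1)) + 1)) (by positivity)
    obtain ⟨N, hN⟩ := eventually_atTop.1 h1
    refine ⟨N, fun k hk => ?_⟩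
    have h2 := hN k hk
    have h3 := L_close h2 n (fun j => θ + extP n p (y k) j)
    have h4 := L_close h2 n (fun j => θ + extP n p ym j)
    have h5 := hM k ym hym
    have h6 := hmax' (y k) (hy k)
    unfold WP at h5 h6 ⊢
    rw [Real.dist_eq, abs_lt]
    have h7 := abs_le.1 h3
    have h8 := abs_le.1 h4
    have h9 : 2 * (ε / (2 * (2 * (n + 1)) + 1)) * ((n : ℝ) + 1) * 2 < ε := by
      have e1 : 2 * (ε / (2 * (2 * (n + 1)) + 1)) * ((n : ℝ) + 1) * 2 =
        (4 * (n + 1)) * ε / (4 * (n + 1) + 1) := by field_simp; ring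
      rw [e1, div_lt_iff₀ (by positivity)]
      nlinarith
    constructor
    · linarith only [h7.1, h7.2, h8.1, h8.2, h5, h9]
    · linarith only [h6, hε]
  refine (isCompact_DomP n p).tendsto_nhds_of_unique_mapClusterPt (Eventually.of_forall hy) ?_
  intro y' hy' hcl
  apply hun y' hy'
  have h1 : MapClusterPt (WP e n p θ y') atTop ((fun y => WP e n p θ y) ∘ y) :=
    hcl.continuousAt_comp hcW.continuousAt
  have h2 : WP e n p θ y' = WP e n p θ ym := by
    have : ClusterPt (WP e n p θ y') (𝓝 (WP e n p θ ym)) := ClusterPt.mono h1 hT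
    exact eq_of_nhds_neBot this
  intro y'' hy''
  rw [h2]
  exact hmax' y'' hy''

/-- **First variation.** Let the tables `hs k`, `es k` have constant maximum functions for
`p`-turn `(n + 1)`-gons, converge uniformly to `e`, and let `(hs k - es k) / eps k` converge
uniformly to `g`. If `f` is a leaf of `e` with rotation number `p / (n + 1)`, then
`∑ g (x j) sin (f (x j))` is the same for all orbits on the leaf. -/
theorem first_variation {e g : ℝ → ℝ} {hs es : ℕ → ℝ → ℝ} {eps : ℕ → ℝ} (hp : 1 ≤ p) (hpn : p ≤ n)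
    (He : Adm e) (hgc : Continuous g) (Hh : ∀ k, Continuous (hs k)) (Hes : ∀ k, Continuous (es k))
    (hC : ∀ k, CstP (hs k) n p) (hC' : ∀ k, CstP (es k) n p)
    (l1 : ∀ ε > 0, ∀ᶠ k in atTop, ∀ x, |hs k x - e x| ≤ ε)
    (l2 : ∀ ε > 0, ∀ᶠ k in atTop, ∀ x, |es k x - e x| ≤ ε)
    (hpos : ∀ k, 0 < eps k)
    (l3 : ∀ ε > 0, ∀ᶠ k in atTop, ∀ x, |(hs k x - es k x) / eps k - g x| ≤ ε)
    (R : RatLeafP e (n + 1) p f) :
    ∃ c : ℝ, ∀ x : ℕ → ℝ, (∀ j, Step e (x j) (f (x j)) (x (j + 1)) (f (x (j + 1)))) →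
      ∑ j ∈ Finset.range (n + 1), g (x j) * sin (f (x j)) = c := by
  have hec : Continuous e := He.an.continuous
  set ck : ℕ → ℝ := fun k => (mxP (hs k) n p 0 - mxP (es k) n p 0) / eps k with hck
  set gk : ℕ → ℝ → ℝ := fun k x => (hs k x - es k x) / eps k with hgk
  have hdec : ∀ k, hs k = fun x => es k x + eps k * gk k x := by
    intro k
    funext x
    have := (hpos k).ne'
    simp only [hgk]
    field_simp
    ring
  have key : ∀ x : ℕ → ℝ, (∀ j, Step e (x j) (f (x j)) (x (j + 1)) (f (x (j + 1)))) →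
      Tendsto ck atTop (𝓝 (2 * ∑ j ∈ Finset.range (n + 1), g (x j) * sin (f (x j)))) := by
    intro x hx
    set θ := x 0 - f (x 0) with hθ
    have hpn1 : p ≤ n + 1 := by omega
    obtain ⟨Z₀, M₀⟩ := exists_maxP (n := n) hec hpn1 θ
    obtain ⟨y₀, hy₀, he₀⟩ := M₀.1.exists_dom
    have hmid := M₀.eq_orbit He hp hpn R hx
    have hall := M₀.on_leaf He hp hpn R
    -- the value
    have hval : WP g n p θ y₀ = 2 * ∑ j ∈ Finset.range (n + 1), g (x j) * sin (f (x j)) := by
      unfold WP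
      rw [L_congr g he₀, L, Finset.mul_sum]
      apply Finset.sum_congr rfl
      intro j hj
      rw [Finset.mem_range] at hj
      have m1 := hmid j (by omega)
      have m2 := hall j (by omega)
      rw [m1] at m2
      have m3 : (Z₀ (j + 1) - Z₀ j) / 2 = f (x j) := by
        rw [m2, ← m1]
        simp only [mid]
        ring
      have m4 : (Z₀ j + Z₀ (j + 1)) / 2 = x j := m1
      unfold S
      rw [m3, m4]
      ring
    -- uniqueness
    have hun : ∀ y' ∈ DomP n p, (∀ y'' ∈ DomP n p, WP e n p θ y'' ≤ WP e n p θ y') → y' = y₀ := by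
      intro y' hy' hmax
      have M' : MaxP e n p θ (fun j => θ + extP n p y' j) := by
        refine ⟨DomP_cfg hy' θ, fun Z' C => ?_⟩
        obtain ⟨y'', hy'', he⟩ := C.exists_dom
        rw [← L_congr e he]
        exact hmax y'' hy''
      have a1 := M'.eq_orbit He hp hpn R hx
      have a2 := M'.on_leaf He hp hpn R
      funext i
      have i1 := a1 i (by omega)
      have i2 := a2 i (by omega)
      have i3 := hmid i (by omega)
      have i4 := hall i (by omega)
      rw [i1] at i2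
      rw [i3] at i4
      have i5 := he₀ (i + 1) (by omega)
      rw [extP_mid] at i5
      simp only [extP_mid] at i2
      linarith only [i2, i4, i5]
    -- general comparison
    have gen : ∀ (u : ℕ → ℝ → ℝ), (∀ k, Continuous (u k)) →
        (∀ ε > 0, ∀ᶠ k in atTop, ∀ x, |u k x - e x| ≤ ε) →
        ∃ Zk : ℕ → ℕ → ℝ, (∀ k, MaxP (u k) n p θ (Zk k)) ∧
          Tendsto (fun k => L (gk k) n (Zk k)) atTop (𝓝 (WP g n p θ y₀)) := by
      intro u huc hul
      choose Zk Mk using fun k => exists_maxP (n := n) (huc k) hpn1 θ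
      choose y hy hye using fun k => (Mk k).1.exists_dom
      refine ⟨Zk, Mk, ?_⟩
      have hT := tendsto_max (θ := θ) hec hul (y := y) (y₀ := y₀) hy (fun k y' hy' => by
        have := (Mk k).2 _ (DomP_cfg hy' θ)
        unfold WP
        rw [L_congr (u k) (hye k)]
        exact this) hy₀ hun
      have hcW : Continuous (fun y => WP g n p θ y) :=
        (continuous_WP hgc n p).comp (Continuous.prodMk_right θ)
      have hT2 : Tendsto (fun k => WP g n p θ (y k)) atTop (𝓝 (WP g n p θ y₀)) :=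
        (hcW.tendsto y₀).comp hT
      have hT3 : Tendsto (fun k => L (gk k) n (Zk k) - WP g n p θ (y k)) atTop (𝓝 0) := by
        rw [Metric.tendsto_atTop]
        intro ε hε
        obtain ⟨N, hN⟩ := eventually_atTop.1 (l3 (ε / (2 * (n + 1) + 1)) (by positivity))
        refine ⟨N, fun k hk => ?_⟩
        have h2 := L_close (hN k hk) n (Zk k)
        rw [Real.dist_eq, sub_zero]
        have e2 : WP g n p θ (y k) = L g n (Zk k) := by
          unfold WP
          rw [L_congr g (hye k)]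
        rw [e2]
        refine lt_of_le_of_lt h2 ?_
        have e1 : 2 * (ε / (2 * (n + 1) + 1)) * ((n : ℝ) + 1) =
          (2 * (n + 1)) * ε / (2 * (n + 1) + 1) := by field_simp
        rw [e1, div_lt_iff₀ (by positivity)]
        nlinarith
      have := hT3.add hT2
      simpa using this
    obtain ⟨Zk, Mk, T1⟩ := gen es Hes l2
    obtain ⟨Yk, Nk, T2⟩ := gen hs Hh l1
    rw [← hval]
    refine tendsto_of_tendsto_of_tendsto_of_le_of_le T1 T2 ?_ ?_
    · intro k
      have a1 := le_mxP (Hh k) (Mk k).1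
      have a2 := (Mk k).mx_eq (Hes k)
      rw [hC k θ] at a1
      rw [hC' k θ] at a2
      have a3 : L (hs k) n (Zk k) = L (es k) n (Zk k) + eps k * L (gk k) n (Zk k) := by
        conv_lhs => rw [hdec k]
        exact L_linear _ _ _ _ _
      show L (gk k) n (Zk k) ≤ ck k
      rw [hck]
      simp only
      rw [le_div_iff₀ (hpos k)]
      linarith only [a1, a2, a3]
    · intro k
      have a1 := le_mxP (Hes k) (Nk k).1
      have a2 := (Nk k).mx_eq (Hh k)
      rw [hC' k θ] at a1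
      rw [hC k θ] at a2
      have a3 : L (hs k) n (Yk k) = L (es k) n (Yk k) + eps k * L (gk k) n (Yk k) := by
        conv_lhs => rw [hdec k]
        exact L_linear _ _ _ _ _
      show ck k ≤ L (gk k) n (Yk k)
      rw [hck]
      simp only
      rw [div_le_iff₀ (hpos k)]
      linarith only [a1, a2, a3]
  by_cases hex : ∃ x : ℕ → ℝ, ∀ j, Step e (x j) (f (x j)) (x (j + 1)) (f (x (j + 1)))
  · obtain ⟨x₀, hx₀⟩ := hex
    refine ⟨∑ j ∈ Finset.range (n + 1), g (x₀ j) * sin (f (x₀ j)), fun x hx => ?_⟩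
    have := tendsto_nhds_unique (key x hx) (key x₀ hx₀)
    linarith only [this]
  · exact ⟨0, fun x hx => absurd ⟨x, hx⟩ hex⟩

end Vale.Agent.P097.PV
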